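import Vale.Agent.P097.H795.Inv

/-! # P097 / LR : [GREG1] the leaf function below the last line -/

set_option linter.all false

open scoped Topology
open Filter Metric Set

namespace Vale.Agent.P097.H795

open Vale.Agent.P097.LR

variable {b κ r : ℝ} {Z : ℂ → ℂ → ℂ} {s₁ : Fin 2 → ℂ} {tI : Fin 2 → ℂ → ℂ}
  {U : Fin 2 → ℂ → ℂ → ℂ} {X₀ : ℝ → ℝ → ℝ}

theorem xi_im (b : ℝ) (k : ℤ) : (xi b k).im = b := by
  unfold xi
  have : ((k : ℂ) / 2) = ((k / 2 : ℝ) : ℂ) := by push_cast; ring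
  rw [this]
  simp

theorem eps_pos : 0 < eps := by unfold eps; norm_num
theorem eps_lt : eps < 1 / 1000 := by unfold eps; norm_num

theorem RX_shift (hX : RX r Z X₀) (n : ℤ) {t w : ℝ} (hw : |w| < r) :
    X₀ (t + n) w = X₀ t w + n := by
  induction n using Int.induction_on with
  | zero => simp
  | succ n ih =>
    have : t + ((n : ℤ) + 1 : ℤ) = (t + (n : ℤ)) + 1 := by push_cast; ring
    rw [this, hX.per _ w hw, ih]; push_cast; ring
  | pred n ih =>
    have e : (t + ((-(n : ℤ) - 1 : ℤ) : ℝ)) + 1 = t + ((-(n : ℤ) : ℤ) : ℝ) := by push_cast; ring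
    have := hX.per (t + ((-(n : ℤ) - 1 : ℤ) : ℝ)) w hw
    rw [e, ih] at this
    push_cast at this ⊢
    linarith

theorem real_lemma (hr : 0 < r) (hX : RX r Z X₀) {e : ℝ} (he : 0 < e) : ∃ ρ₁ : ℝ, 0 < ρ₁ ∧ ρ₁ ≤ r ∧
    ∀ t w : ℝ, |w| < ρ₁ → |X₀ t w - t| < e := by
  have hK : IsCompact (Icc (0 : ℝ) 1 ×ˢ Icc (-(r / 2)) (r / 2)) := isCompact_Icc.prod isCompact_Icc
  have huc := hK.uniformContinuousOn_of_continuous (f := fun p : ℝ × ℝ => X₀ p.1 p.2)
    (hX.cont.mono (by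
      rintro ⟨t, w⟩ ⟨-, hw⟩
      simp only [mem_Icc] at hw
      show |w| < r
      rw [abs_lt]; constructor <;> linarith [hw.1, hw.2]))
  obtain ⟨d, hd, hdd⟩ := Metric.uniformContinuousOn_iff.1 huc e he
  refine ⟨min d (r / 2), by positivity, (min_le_right _ _).trans (by linarith), fun t w hw => ?_⟩
  have hw1 : |w| < d := hw.trans_le (min_le_left _ _)
  have hw2 : |w| < r / 2 := hw.trans_le (min_le_right _ _)
  have hw3 : |w| < r := by linarith
  have h0 : |(0 : ℝ)| < r := by simpa using hr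
  set n : ℤ := -⌊t⌋ with hn
  have h1 : t + n ∈ Icc (0 : ℝ) 1 := by
    rw [hn]; push_cast
    exact ⟨by linarith [Int.floor_le t], by linarith [Int.lt_floor_add_one t]⟩
  have h2 := hdd (t + n, w) ⟨h1, by
    show w ∈ Icc (-(r / 2)) (r / 2)
    exact abs_le.1 hw2.le⟩ (t + n, 0) ⟨h1, by
    show (0 : ℝ) ∈ Icc (-(r / 2)) (r / 2)
    exact ⟨by linarith, by linarith⟩⟩ (by
      rw [Prod.dist_eq]
      simp only [dist_self, Real.dist_eq, sub_zero]
      exact max_lt hd hw1)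
  simp only [Real.dist_eq] at h2
  rw [hX.zero, RX_shift hX n hw3] at h2
  rwa [show X₀ t w + (n : ℝ) - (t + n) = X₀ t w - t by ring] at h2

theorem per_shift {Γ : ℂ → ℂ} {c d : ℝ} (hp : ∀ x : ℂ, c < x.im → x.im < d → Γ (x + 1) = Γ x)
    (n : ℤ) {x : ℂ} (h1 : c < x.im) (h2 : x.im < d) : Γ (x + n) = Γ x := by
  induction n using Int.induction_on with
  | zero => simp
  | succ n ih =>
    have : x + ((n : ℤ) + 1 : ℤ) = (x + (n : ℤ)) + 1 := by push_cast; ring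
    rw [this, hp _ (by simpa using h1) (by simpa using h2), ih]
  | pred n ih =>
    have e : (x + ((-(n : ℤ) - 1 : ℤ) : ℂ)) + 1 = x + ((-(n : ℤ) : ℤ) : ℂ) := by push_cast; ring
    have := hp (x + ((-(n : ℤ) - 1 : ℤ) : ℂ)) (by simpa using h1) (by simpa using h2)
    rw [e] at this
    rw [← this, ih]

theorem bdd_strip {Γ : ℂ → ℂ} {c d c' d' : ℝ}
    (hΓ : DifferentiableOn ℂ Γ {x | c < x.im ∧ x.im < d})
    (hp : ∀ x : ℂ, c < x.im → x.im < d → Γ (x + 1) = Γ x) (hc : c < c') (hd : d' < d) :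
    ∃ M : ℝ, 0 ≤ M ∧ ∀ x : ℂ, c' ≤ x.im → x.im ≤ d' → ‖Γ x‖ ≤ M := by
  have hK : IsCompact (Icc (0 : ℝ) 1 ×ℂ Icc c' d') := isCompact_Icc.reProdIm isCompact_Icc
  obtain ⟨C, hC⟩ := hK.exists_bound_of_continuousOn (hΓ.continuousOn.mono (by
    intro x hx
    rw [Complex.mem_reProdIm] at hx
    exact ⟨by linarith [hx.2.1], by linarith [hx.2.2]⟩))
  refine ⟨|C|, abs_nonneg _, fun x h1 h2 => ?_⟩
  have h3 := hC (x + ((-⌊x.re⌋ : ℤ) : ℂ)) (by
    rw [Complex.mem_reProdIm]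
    have e1 : (x + ((-⌊x.re⌋ : ℤ) : ℂ)).re = x.re - ⌊x.re⌋ := by simp [sub_eq_add_neg]
    have e2 : (x + ((-⌊x.re⌋ : ℤ) : ℂ)).im = x.im := by simp
    rw [e1, e2]
    exact ⟨⟨by linarith [Int.floor_le x.re], by linarith [Int.lt_floor_add_one x.re]⟩, ⟨h1, h2⟩⟩)
  rw [per_shift hp _ (by linarith) (by linarith)] at h3
  exact h3.trans (le_abs_self C)

/-- The imaginary part of a nearby point. -/
theorem im_near {x t : ℂ} {e : ℝ} (h : ‖x - t‖ ≤ e) : t.im - e ≤ x.im ∧ x.im ≤ t.im + e := by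
  have h1 := (Complex.abs_im_le_norm (x - t)).trans h
  rw [Complex.sub_im, abs_le] at h1
  exact ⟨by linarith [h1.1], by linarith [h1.2]⟩

theorem gREG1 : GREG1 := by
  intro b κ r Z s₁ tI U h X₀ hX₀ κ₀ β Γ hκ₀ hκ₀κ hβ hβb hΓ hper
  have hκ := h.hκ
  have hr := h.hr
  have he := eps_pos
  have he' := eps_lt
  obtain ⟨r₁, C, κ₁, X, hr₁r, -, -, hC, hX⟩ := iNV b κ r Z s₁ tI U h ((b - β) / 2) (by linarith) 1
    one_pos
  obtain ⟨ρ₁, hρ₁, hρ₁r, hreal⟩ := real_lemma hr hX₀ hX.hκ₁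
  have hr₁ := hX.hr₁
  refine ⟨min (min (r₁ / 2) (ρ₁ / 2)) (min κ₀ (eps / (8 * (C + 1)))), by positivity, ?_⟩
  intro ρ hρ hρlt
  have hρ1 : 2 * ρ < r₁ := by
    have := hρlt.trans_le ((min_le_left _ _).trans (min_le_left _ _)); linarith
  have hρ2 : 2 * ρ < ρ₁ := by
    have := hρlt.trans_le ((min_le_left _ _).trans (min_le_right _ _)); linarith
  have hρ3 : ρ < κ₀ := hρlt.trans_le ((min_le_right _ _).trans (min_le_left _ _))
  have hρ4 : 8 * (C + 1) * ρ < eps := by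
    have := hρlt.trans_le ((min_le_right _ _).trans (min_le_right _ _))
    rw [lt_div_iff₀ (by positivity)] at this; linarith
  -- membership
  have hmem : ∀ t w : ℂ, ‖w‖ < 2 * ρ → -(κ₀ / 2) < t.im → t.im < β - eps * ρ →
      (t, w) ∈ XD b κ ((b - β) / 2) r₁ := by
    intro t w hw h1 h2
    have : 0 < eps * ρ := by positivity
    refine ⟨by show ‖w‖ < r₁; linarith, by show -(κ / 2) < t.im; linarith,
      by show t.im < b + κ / 2; linarith, fun k => ?_⟩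
    show (b - β) / 2 < ‖t - xi b k‖
    have h3 := Complex.abs_im_le_norm (t - xi b k)
    rw [Complex.sub_im, xi_im] at h3
    have h4 := neg_le_abs (t.im - b)
    linarith
  have hnear : ∀ t w : ℂ, ‖w‖ < 2 * ρ → -(κ₀ / 2) < t.im → t.im < β - eps * ρ →
      -(3 / 4 * κ₀) ≤ (X t w).im ∧ (X t w).im ≤ β - eps * ρ / 2 := by
    intro t w hw h1 h2
    have h3 := hX.near t w (hmem t w hw h1 h2)
    have h4 : C * ‖w‖ ^ 2 ≤ eps * ρ / 2 := by
      have h5 : ‖w‖ ^ 2 ≤ (2 * ρ) ^ 2 := by gcongr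
      have h6 : C * ‖w‖ ^ 2 ≤ C * (2 * ρ) ^ 2 := by gcongr
      nlinarith
    have h7 := im_near (h3.trans h4)
    have h8 : eps * ρ ≤ 1 / 4 * κ₀ := by nlinarith
    exact ⟨by linarith [h7.1], by linarith [h7.2]⟩
  obtain ⟨M, hM0, hM⟩ := bdd_strip (c' := -(3 / 4 * κ₀)) (d' := β - eps * ρ / 2) hΓ hper
    (by linarith) (by nlinarith)
  refine ⟨fun t w => Γ (X t w), ?_, ⟨M, ?_⟩, ?_, ?_, ?_⟩
  · refine DifferentiableOn.comp (g := Γ) (f := fun p : ℂ × ℂ => X p.1 p.2) hΓ ?_ ?_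
    · exact hX.dX.mono fun p hp => hmem p.1 p.2 hp.1 hp.2.1 hp.2.2
    · intro p hp
      have := hnear p.1 p.2 hp.1 hp.2.1 hp.2.2
      have h9 : 0 < eps * ρ := by positivity
      exact ⟨by linarith [this.1], by linarith [this.2]⟩
  · intro t w hw h1 h2
    exact hM _ (hnear t w hw h1 h2).1 (hnear t w hw h1 h2).2
  · intro t w hw h1 h2
    have h3 := hnear t w hw h1 h2
    have h9 : 0 < eps * ρ := by positivity
    show Γ (X (t + 1) w) = Γ (X t w)
    rw [hX.per t w (hmem t w hw h1 h2)]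
    exact hper _ (by linarith [h3.1]) (by linarith [h3.2])
  · intro t h1 h2
    show Γ (X t 0) = Γ t
    rw [hX.zero t (hmem t 0 (by simpa using (by positivity : 0 < 2 * ρ)) h1 h2)]
  · intro t w hw
    show Γ (X t w) = Γ (X₀ t w)
    have h1 : ((t : ℂ), (w : ℂ)) ∈ XD b κ ((b - β) / 2) r₁ := by
      refine ⟨?_, ?_, ?_, fun k => ?_⟩
      · show ‖(w : ℂ)‖ < r₁
        rw [Complex.norm_real, Real.norm_eq_abs]; linarith
      · show -(κ / 2) < (t : ℂ).im
        rw [Complex.ofReal_im]; linarith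
      · show (t : ℂ).im < b + κ / 2
        rw [Complex.ofReal_im]; linarith
      · show (b - β) / 2 < ‖(t : ℂ) - xi b k‖
        have h3 := Complex.abs_im_le_norm ((t : ℂ) - xi b k)
        rw [Complex.sub_im, xi_im, Complex.ofReal_im] at h3
        have h4 := neg_le_abs (0 - b)
        linarith
    rw [hX.uniq t w h1 (X₀ t w) ?_ ?_]
    · have := hreal t w (by linarith)
      rw [← Complex.ofReal_sub, Complex.norm_real, Real.norm_eq_abs]
      exact this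
    · exact hX₀.eq t w (by linarith)

end Vale.Agent.P097.H795
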