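import Vale.Agent.P097.H795.Greg
import Vale.Agent.P097.H970.NS

/-! # P097 / LR : [GREG] -/

namespace Vale.Agent.P097.H795

open Vale.Agent.P097.LR

theorem gREG : GREG := gREG_of Vale.Agent.P097.H970.ns0

end Vale.Agent.P097.H795
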