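import Vale.Agent.P097.H795.Greg1

/-! # P097 / LR : [GREG] the leaf function on the last line -/

set_option linter.all false

open scoped Topology
open Filter Metric Set

namespace Vale.Agent.P097.H795

open Vale.Agent.P097.LR

/-- parity -/
noncomputable def par (k : ℤ) : Fin 2 := by
  classical exact if Even k then 0 else 1

theorem par_spec (k : ℤ) : ∃ n : ℤ, k = ((par k : ℕ) : ℤ) + 2 * n := by
  unfold par
  split_ifs with h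
  · obtain ⟨n, hn⟩ := h
    exact ⟨n, by simp; omega⟩
  · rw [Int.not_even_iff_odd] at h
    obtain ⟨n, hn⟩ := h
    exact ⟨n, by simp; omega⟩

theorem par_fin (j : Fin 2) : par ((j : ℕ) : ℤ) = j := by
  unfold par
  fin_cases j <;> simp

theorem par_add_two (k : ℤ) : par (k + 2) = par k := by
  unfold par
  have : Even (k + 2) ↔ Even k := by
    rw [Int.even_add]; simp
  simp only [this]

theorem xi_sep (b : ℝ) {k k' : ℤ} (hne : k ≠ k') : 1 / 2 ≤ ‖xi b k - xi b k'‖ := by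
  have h1 : xi b k - xi b k' = (((k - k' : ℤ) : ℝ) / 2 : ℝ) := by
    unfold xi; push_cast; ring
  rw [h1, Complex.norm_real, Real.norm_eq_abs, abs_div, abs_of_pos (by norm_num : (0 : ℝ) < 2)]
  have h2 : (1 : ℝ) ≤ |((k - k' : ℤ) : ℝ)| := by
    rw [← Int.cast_abs]
    exact_mod_cast Int.one_le_abs (sub_ne_zero.2 hne)
  linarith

/-- shifting a point near `xi b k` to a point near `xi b (par k)` -/
theorem shift_par (b : ℝ) (k : ℤ) :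
    ∃ n : ℤ, ∀ t : ℂ, t - xi b k = (t + ((-n : ℤ) : ℂ)) - xi b (par k : ℕ) := by
  obtain ⟨n, hn⟩ := par_spec k
  refine ⟨n, fun t => ?_⟩
  have h1 : xi b k = xi b (par k : ℕ) + n := by rw [xi_add, ← hn]
  rw [h1]; push_cast; ring

/-- all choices made for [GREG] -/
structure GD (b κ r κ₀ R κ'' δ₁ ρ r₁ C κ₁ : ℝ) (Z : ℂ → ℂ → ℂ) (s₁ u : Fin 2 → ℂ) (Γ : ℂ → ℂ)
    (Φ : Fin 2 → ℂ → ℂ) (X : ℂ → ℂ → ℂ) : Prop where
  hκ : 0 < κ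
  hr : 0 < r
  hb : 0 < b
  hκ₀ : 0 < κ₀
  hκ₀κ : κ₀ ≤ κ
  hδ₁ : 0 < δ₁
  hδ₁b : δ₁ < b
  hδ₁h : δ₁ < 1 / 2
  hδ₁κ : δ₁ < κ''
  hρ : 0 < ρ
  hρr : 2 * ρ < r₁
  hr₁r : r₁ ≤ r
  hρκ : ρ < κ₀
  hρC : 8 * (C + 1) * ρ < eps
  hρκ'' : ρ < κ''
  hρb : ρ < b
  hC : 0 ≤ C
  hX : XI b κ Z (δ₁ / 8) r₁ C κ₁ X
  dZ : JD Z {p | -κ < p.1.im ∧ p.1.im < b + κ ∧ ‖p.2‖ < r}
  shift : ∀ n : ℤ, ∀ t w : ℂ, -κ < t.im → t.im < b + κ → ‖w‖ < r → Z (t + n) w = Z t w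
  hΓ : DifferentiableOn ℂ Γ {x | -κ₀ < x.im ∧ x.im < b}
  hper : ∀ x : ℂ, -κ₀ < x.im → x.im < b → Γ (x + 1) = Γ x
  hΦ : ∀ j : Fin 2, DifferentiableOn ℂ (Φ j) (SB (s₁ j) (u j) R)
  hΦΓ : ∀ j : Fin 2, ∀ x : ℂ, ‖x - xi b (j : ℕ)‖ < κ'' → x.im < b →
    Z x 0 ∈ SB (s₁ j) (u j) R ∧ Φ j (Z x 0) = Γ x
  F1 : ∀ j : Fin 2, ∀ t w : ℂ, ‖w‖ ≤ 2 * ρ → t.im + |w.im| / 2 ≤ b - eps * ρ →
      ‖t - xi b (j : ℕ)‖ ≤ δ₁ / 2 → Z t w ∈ SB (s₁ j) (u j) R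

namespace GD

variable {b κ r κ₀ R κ'' δ₁ ρ r₁ C κ₁ : ℝ} {Z : ℂ → ℂ → ℂ} {s₁ u : Fin 2 → ℂ} {Γ : ℂ → ℂ}
  {Φ : Fin 2 → ℂ → ℂ} {X : ℂ → ℂ → ℂ}

theorem heρ (D : GD b κ r κ₀ R κ'' δ₁ ρ r₁ C κ₁ Z s₁ u Γ Φ X) : 0 < eps * ρ :=
  mul_pos eps_pos D.hρ

theorem heρ2 (D : GD b κ r κ₀ R κ'' δ₁ ρ r₁ C κ₁ Z s₁ u Γ Φ X) : eps * ρ < ρ / 4 := by
  have := eps_lt
  have := D.hρ
  nlinarith

theorem mem (D : GD b κ r κ₀ R κ'' δ₁ ρ r₁ C κ₁ Z s₁ u Γ Φ X) {t w : ℂ} (hw : ‖w‖ < 2 * ρ)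
    (h1 : -(κ₀ / 2) < t.im) (h2 : t.im < b - eps * ρ) (h3 : ∀ k : ℤ, δ₁ / 8 < ‖t - xi b k‖) :
    (t, w) ∈ XD b κ (δ₁ / 8) r₁ := by
  have := D.heρ
  have := D.hρr
  have := D.hκ₀κ
  have := D.hκ
  exact ⟨by show ‖w‖ < r₁; linarith, by show -(κ / 2) < t.im; linarith,
      by show t.im < b + κ / 2; linarith, h3⟩

theorem near (D : GD b κ r κ₀ R κ'' δ₁ ρ r₁ C κ₁ Z s₁ u Γ Φ X) {t w : ℂ} (hw : ‖w‖ < 2 * ρ)
    (h1 : -(κ₀ / 2) < t.im) (h2 : t.im < b - eps * ρ) (h3' : ∀ k : ℤ, δ₁ / 8 < ‖t - xi b k‖) :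
    ‖X t w - t‖ ≤ eps * ρ / 2 ∧
      -(3 / 4 * κ₀) ≤ (X t w).im ∧ (X t w).im ≤ b - eps * ρ / 2 := by
  have h3 := D.hX.near t w (D.mem hw h1 h2 h3')
  have hC := D.hC
  have hρ := D.hρ
  have h4 : C * ‖w‖ ^ 2 ≤ eps * ρ / 2 := by
    have h5 : ‖w‖ ^ 2 ≤ (2 * ρ) ^ 2 := by gcongr
    have h6 : C * ‖w‖ ^ 2 ≤ C * (2 * ρ) ^ 2 := by gcongr
    have := D.hρC
    nlinarith
  have h7 := im_near (h3.trans h4)
  have h8 := D.heρ2
  have h9 := D.hρκ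
  have h10 := D.hκ₀
  exact ⟨h3.trans h4, by linarith [h7.1], by linarith [h7.2]⟩

theorem F1' (D : GD b κ r κ₀ R κ'' δ₁ ρ r₁ C κ₁ Z s₁ u Γ Φ X) (k : ℤ) {t w : ℂ}
    (hw : ‖w‖ ≤ 2 * ρ) (h0 : -κ < t.im) (h1 : t.im + |w.im| / 2 ≤ b - eps * ρ)
    (h2 : ‖t - xi b k‖ ≤ δ₁ / 2) : Z t w ∈ SB (s₁ (par k)) (u (par k)) R := by
  obtain ⟨n, hn⟩ := shift_par b k
  rw [hn t] at h2
  have h3 := D.F1 (par k) (t + ((-n : ℤ) : ℂ)) w hw (by simpa using h1) h2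
  have h4 := abs_nonneg w.im
  have h5 := D.heρ
  have h6 := D.hκ
  have h7 := D.hρr
  have h8 := D.hr₁r
  rwa [D.shift (-n) t w h0 (by linarith) (by linarith)] at h3

theorem F2 (D : GD b κ r κ₀ R κ'' δ₁ ρ r₁ C κ₁ Z s₁ u Γ Φ X) (k : ℤ) {t w : ℂ}
    (hw : ‖w‖ < 2 * ρ) (h1 : -(κ₀ / 2) < t.im) (h2 : t.im < b - eps * ρ)
    (h3 : ∀ k : ℤ, δ₁ / 8 < ‖t - xi b k‖) (h4 : ‖t - xi b k‖ < δ₁ / 2) :
    Φ (par k) (Z t w) = Γ (X t w) := by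
  obtain ⟨hx1, hx2, hx3⟩ := D.near hw h1 h2 h3
  obtain ⟨n, hn⟩ := shift_par b k
  have e1 := D.heρ
  have e2 := D.heρ2
  have e3 := D.hρκ''
  have e4 := D.hδ₁κ
  have e5 := D.hκ₀κ
  have e6 := D.hκ₀
  have e7 := D.hκ
  have h5 : ‖X t w - xi b k‖ < κ'' := by
    have h6 : X t w - xi b k = (X t w - t) + (t - xi b k) := by ring
    rw [h6]
    have h7 := norm_add_le (X t w - t) (t - xi b k)
    have := D.hρ
    have := D.hδ₁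
    linarith
  rw [hn (X t w)] at h5
  have h6 := (D.hΦΓ (par k) (X t w + ((-n : ℤ) : ℂ)) h5 (by
    have : (X t w + ((-n : ℤ) : ℂ)).im = (X t w).im := by simp
    rw [this]; linarith)).2
  rw [D.shift (-n) _ _ (by linarith) (by linarith) (by simpa using D.hr),
    D.hX.eq t w (D.mem hw h1 h2 h3), per_shift D.hper (-n) (by linarith) (by linarith)] at h6
  exact h6

end GD

/-- the leaf function -/
noncomputable def GG (b δ₁ : ℝ) (Z : ℂ → ℂ → ℂ) (Γ : ℂ → ℂ) (Φ : Fin 2 → ℂ → ℂ) (X : ℂ → ℂ → ℂ)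
    (t w : ℂ) : ℂ := by
  classical exact
    if H : ∃ k : ℤ, ‖t - xi b k‖ < δ₁ / 2 then Φ (par H.choose) (Z t w) else Γ (X t w)

namespace GD

variable {b κ r κ₀ R κ'' δ₁ ρ r₁ C κ₁ : ℝ} {Z : ℂ → ℂ → ℂ} {s₁ u : Fin 2 → ℂ} {Γ : ℂ → ℂ}
  {Φ : Fin 2 → ℂ → ℂ} {X : ℂ → ℂ → ℂ}

theorem F3 (D : GD b κ r κ₀ R κ'' δ₁ ρ r₁ C κ₁ Z s₁ u Γ Φ X) (k : ℤ) {t w : ℂ}
    (hk : ‖t - xi b k‖ < δ₁ / 2) : GG b δ₁ Z Γ Φ X t w = Φ (par k) (Z t w) := by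
  have H : ∃ k : ℤ, ‖t - xi b k‖ < δ₁ / 2 := ⟨k, hk⟩
  have h1 : H.choose = k := by
    by_contra hne
    have h2 := xi_sep b hne
    have h3 : xi b H.choose - xi b k = (t - xi b k) - (t - xi b H.choose) := by ring
    rw [h3] at h2
    have h4 := norm_sub_le (t - xi b k) (t - xi b H.choose)
    have h5 := H.choose_spec
    have := D.hδ₁h
    linarith
  unfold GG
  rw [dif_pos H, h1]

theorem F4 (D : GD b κ r κ₀ R κ'' δ₁ ρ r₁ C κ₁ Z s₁ u Γ Φ X) {t w : ℂ} (hw : ‖w‖ < 2 * ρ)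
    (h1 : -(κ₀ / 2) < t.im) (h2 : t.im < b - eps * ρ) (h3 : ∀ k : ℤ, δ₁ / 8 < ‖t - xi b k‖) :
    GG b δ₁ Z Γ Φ X t w = Γ (X t w) := by
  by_cases H : ∃ k : ℤ, ‖t - xi b k‖ < δ₁ / 2
  · obtain ⟨k, hk⟩ := H
    rw [D.F3 k hk]
    exact D.F2 k hw h1 h2 h3 hk
  · unfold GG
    rw [dif_neg H]

theorem jd (D : GD b κ r κ₀ R κ'' δ₁ ρ r₁ C κ₁ Z s₁ u Γ Φ X) :
    JD (GG b δ₁ Z Γ Φ X) (RG (κ₀ / 2) (b - eps * ρ) (2 * ρ)) := by
  rintro ⟨t₀, w₀⟩ hp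
  have hpm := hp
  obtain ⟨hw, h1, h2⟩ := hpm
  simp only at hw h1 h2
  have e1 := D.heρ
  have e2 := D.hκ₀κ
  have e3 := D.hκ
  have e4 := D.hρr
  have e5 := D.hr₁r
  have e6 := D.hδ₁
  have e7 := D.hκ₀
  by_cases H : ∃ k : ℤ, ‖t₀ - xi b k‖ < δ₁ / 2
  · obtain ⟨k, hk⟩ := H
    have hopen : {p : ℂ × ℂ | ‖p.1 - xi b k‖ < δ₁ / 2} ∈ 𝓝 (t₀, w₀) :=
      (isOpen_lt (by fun_prop) continuous_const).mem_nhds hk
    have hd : DifferentiableOn ℂ (fun p : ℂ × ℂ => Φ (par k) (Z p.1 p.2))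
        (RG (κ₀ / 2) (b - eps * ρ) (2 * ρ) ∩ {p : ℂ × ℂ | ‖p.1 - xi b k‖ < δ₁ / 2}) := by
      refine DifferentiableOn.comp (g := Φ (par k)) (f := fun p : ℂ × ℂ => Z p.1 p.2)
        (D.hΦ (par k)) ?_ ?_
      · refine D.dZ.mono ?_
        rintro p ⟨⟨h3, h4, h5⟩, -⟩
        have := abs_nonneg p.2.im
        exact ⟨by linarith, by linarith, by linarith⟩
      · rintro p ⟨⟨h3, h4, h5⟩, h6⟩
        exact D.F1' k h3.le (by linarith) h5.le (le_of_lt h6)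
    have hd2 := hd (t₀, w₀) ⟨hp, hk⟩
    rw [differentiableWithinAt_inter hopen] at hd2
    refine hd2.congr_of_eventuallyEq ?_ (D.F3 k hk)
    filter_upwards [mem_nhdsWithin_of_mem_nhds hopen] with p hp2
    exact D.F3 k hp2
  · push Not at H
    have h0 : ‖t₀ - t₀‖ < δ₁ / 4 := by rw [sub_self, norm_zero]; linarith
    have hopen : {p : ℂ × ℂ | ‖p.1 - t₀‖ < δ₁ / 4} ∈ 𝓝 (t₀, w₀) :=
      (isOpen_lt (by fun_prop) continuous_const).mem_nhds h0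
    have haway : ∀ t : ℂ, ‖t - t₀‖ < δ₁ / 4 → ∀ k : ℤ, δ₁ / 8 < ‖t - xi b k‖ := by
      intro t ht k
      have h3 := H k
      have h4 : t₀ - xi b k = (t - xi b k) - (t - t₀) := by ring
      rw [h4] at h3
      have h5 := norm_sub_le (t - xi b k) (t - t₀)
      linarith
    have hd : DifferentiableOn ℂ (fun p : ℂ × ℂ => Γ (X p.1 p.2))
        (RG (κ₀ / 2) (b - eps * ρ) (2 * ρ) ∩ {p : ℂ × ℂ | ‖p.1 - t₀‖ < δ₁ / 4}) := by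
      refine DifferentiableOn.comp (g := Γ) (f := fun p : ℂ × ℂ => X p.1 p.2) D.hΓ ?_ ?_
      · refine D.hX.dX.mono ?_
        rintro p ⟨⟨h3, h4, h5⟩, h6⟩
        have := abs_nonneg p.2.im
        exact D.mem h3 h4 (by linarith) (haway p.1 h6)
      · rintro p ⟨⟨h3, h4, h5⟩, h6⟩
        have := abs_nonneg p.2.im
        have h7 := D.near h3 h4 (by linarith) (haway p.1 h6)
        exact ⟨by linarith [h7.2.1], by linarith [h7.2.2]⟩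
    have hd2 := hd (t₀, w₀) ⟨hp, h0⟩
    rw [differentiableWithinAt_inter hopen] at hd2
    have habs := abs_nonneg w₀.im
    refine hd2.congr_of_eventuallyEq ?_ (D.F4 hw h1 (by linarith) (haway t₀ h0))
    filter_upwards [mem_nhdsWithin_of_mem_nhds hopen, self_mem_nhdsWithin] with p hp2 hp3
    have := abs_nonneg p.2.im
    exact D.F4 hp3.1 hp3.2.1 (by linarith [hp3.2.2]) (haway p.1 hp2)

theorem bddj (D : GD b κ r κ₀ R κ'' δ₁ ρ r₁ C κ₁ Z s₁ u Γ Φ X) (j : Fin 2) :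
    ∃ M' : ℝ, 0 ≤ M' ∧ ∀ t w : ℂ, ‖w‖ ≤ 2 * ρ →
      t.im + |w.im| / 2 ≤ b - eps * ρ → ‖t - xi b (j : ℕ)‖ ≤ δ₁ / 2 → ‖Φ j (Z t w)‖ ≤ M' := by
  have e1 := D.heρ
  have e2 := D.hκ₀κ
  have e3 := D.hκ
  have e4 := D.hρr
  have e5 := D.hr₁r
  have e6 := D.hδ₁
  have e7 := D.hκ₀
  have e8 := D.hδ₁b
  have e9 := D.hb
  have hK : IsCompact ((closedBall (xi b (j : ℕ)) (δ₁ / 2) ×ˢ closedBall (0 : ℂ) (2 * ρ)) ∩
      {p : ℂ × ℂ | p.1.im + |p.2.im| / 2 ≤ b - eps * ρ}) := by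
    refine ((isCompact_closedBall _ _).prod (isCompact_closedBall _ _)).inter_right ?_
    refine isClosed_le ?_ continuous_const
    have : Continuous fun p : ℂ × ℂ => p.2.im := by fun_prop
    exact ((by fun_prop : Continuous fun p : ℂ × ℂ => p.1.im)).add (this.abs.div_const 2)
  have hdomj : ∀ p : ℂ × ℂ, p ∈ ((closedBall (xi b (j : ℕ)) (δ₁ / 2) ×ˢ
      closedBall (0 : ℂ) (2 * ρ)) ∩ {p : ℂ × ℂ | p.1.im + |p.2.im| / 2 ≤ b - eps * ρ}) →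
      ‖p.1 - xi b (j : ℕ)‖ ≤ δ₁ / 2 ∧ ‖p.2‖ ≤ 2 * ρ ∧ p.1.im + |p.2.im| / 2 ≤ b - eps * ρ := by
    rintro p ⟨⟨h1, h2⟩, h3⟩
    rw [mem_closedBall, dist_eq_norm] at h1
    rw [mem_closedBall, dist_zero_right] at h2
    exact ⟨h1, h2, h3⟩
  obtain ⟨C', hC'⟩ := hK.exists_bound_of_continuousOn (f := fun p : ℂ × ℂ => Φ j (Z p.1 p.2)) (by
    refine ContinuousOn.comp (g := Φ j) (f := fun p : ℂ × ℂ => Z p.1 p.2)
      (D.hΦ j).continuousOn ?_ ?_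
    · refine D.dZ.continuousOn.mono fun p hp => ?_
      obtain ⟨h1, h2, h3⟩ := hdomj p hp
      have h4 := im_near h1
      rw [xi_im] at h4
      have h5 := abs_nonneg p.2.im
      exact ⟨by linarith [h4.1], by linarith, by linarith⟩
    · intro p hp
      obtain ⟨h1, h2, h3⟩ := hdomj p hp
      exact D.F1 j p.1 p.2 h2 h3 h1)
  refine ⟨|C'|, abs_nonneg _, fun t w h1 h2 h3 => ?_⟩
  have h4 := hC' (t, w) ⟨⟨by rw [mem_closedBall, dist_eq_norm]; exact h3,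
    by rw [mem_closedBall, dist_zero_right]; exact h1⟩, h2⟩
  exact h4.trans (le_abs_self _)

theorem bdd (D : GD b κ r κ₀ R κ'' δ₁ ρ r₁ C κ₁ Z s₁ u Γ Φ X) :
    ∃ M : ℝ, ∀ p ∈ RG (κ₀ / 2) (b - eps * ρ) (2 * ρ), ‖GG b δ₁ Z Γ Φ X p.1 p.2‖ ≤ M := by
  have e1 := D.heρ
  have e2 := D.hκ₀κ
  have e3 := D.hκ
  have e4 := D.hρr
  have e5 := D.hr₁r
  have e6 := D.hδ₁
  have e7 := D.hκ₀
  obtain ⟨M, hM0, hM⟩ := bdd_strip (c' := -(3 / 4 * κ₀)) (d' := b - eps * ρ / 2) D.hΓ D.hper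
    (by linarith) (by linarith)
  choose M' hM'0 hM' using D.bddj
  refine ⟨M + M' 0 + M' 1, ?_⟩
  rintro ⟨t, w⟩ ⟨hw, h1, h2⟩
  simp only at hw h1 h2
  have habs := abs_nonneg w.im
  have h5 := hM'0 0
  have h6 := hM'0 1
  by_cases H : ∃ k : ℤ, ‖t - xi b k‖ < δ₁ / 2
  · obtain ⟨k, hk⟩ := H
    show ‖GG b δ₁ Z Γ Φ X t w‖ ≤ _
    rw [D.F3 k hk]
    obtain ⟨n, hn⟩ := shift_par b k
    rw [hn t] at hk
    have h3 := hM' (par k) (t + ((-n : ℤ) : ℂ)) w hw.le (by simpa using h2.le) hk.le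
    rw [D.shift (-n) t w (by linarith) (by linarith) (by linarith)] at h3
    have h4 : M' (par k) ≤ M' 0 + M' 1 := by
      rcases (show par k = 0 ∨ par k = 1 by omega) with h7 | h7 <;> rw [h7] <;> linarith
    linarith
  · push Not at H
    show ‖GG b δ₁ Z Γ Φ X t w‖ ≤ _
    have haw : ∀ k : ℤ, δ₁ / 8 < ‖t - xi b k‖ := fun k => by linarith [H k]
    rw [D.F4 hw h1 (by linarith) haw]
    have h3 := D.near hw h1 (by linarith) haw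
    have h4 := hM _ h3.2.1 h3.2.2
    linarith

theorem per (D : GD b κ r κ₀ R κ'' δ₁ ρ r₁ C κ₁ Z s₁ u Γ Φ X) {t w : ℂ}
    (hp : (t, w) ∈ RG (κ₀ / 2) (b - eps * ρ) (2 * ρ)) :
    GG b δ₁ Z Γ Φ X (t + 1) w = GG b δ₁ Z Γ Φ X t w := by
  obtain ⟨hw, h1, h2⟩ := hp
  simp only at hw h1 h2
  have habs := abs_nonneg w.im
  have e1 := D.heρ
  have e2 := D.hκ₀κ
  have e3 := D.hκ
  have e4 := D.hρr
  have e5 := D.hr₁r
  have e6 := D.hδ₁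
  have e7 := D.hκ₀
  by_cases H : ∃ k : ℤ, ‖t - xi b k‖ < δ₁ / 2
  · obtain ⟨k, hk⟩ := H
    have hk2 : ‖t + 1 - xi b (k + 2)‖ < δ₁ / 2 := by
      have h3 : t + 1 - xi b (k + 2) = t - xi b k := by
        have := xi_add b k 1
        rw [show k + 2 * 1 = k + 2 by ring] at this
        rw [← this]; push_cast; ring
      rw [h3]; exact hk
    have h4 := D.shift 1 t w (by linarith) (by linarith) (by linarith)
    rw [Int.cast_one] at h4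
    rw [D.F3 k hk, D.F3 (k + 2) hk2, par_add_two, h4]
  · push Not at H
    have haw : ∀ k : ℤ, δ₁ / 8 < ‖t - xi b k‖ := fun k => by linarith [H k]
    have haw2 : ∀ k : ℤ, δ₁ / 8 < ‖t + 1 - xi b k‖ := by
      intro k
      have h3 := haw (k + 2 * (-1))
      rw [← xi_add] at h3
      have h4 : t + 1 - xi b k = t - (xi b k + ((-1 : ℤ) : ℂ)) := by push_cast; ring
      rw [h4]; exact h3
    have him : (t + 1).im = t.im := by simp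
    rw [D.F4 hw h1 (by linarith) haw, D.F4 (t := t + 1) hw (by rw [him]; exact h1)
      (by rw [him]; linarith) haw2, D.hX.per t w (D.mem hw h1 (by linarith) haw)]
    have h3 := D.near hw h1 (by linarith) haw
    exact D.hper _ (by linarith [h3.2.1]) (by linarith [h3.2.2])

theorem zero (D : GD b κ r κ₀ R κ'' δ₁ ρ r₁ C κ₁ Z s₁ u Γ Φ X) {t : ℂ} (h1 : -(κ₀ / 2) < t.im)
    (h2 : t.im < b - eps * ρ) : GG b δ₁ Z Γ Φ X t 0 = Γ t := by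
  have e1 := D.heρ
  have e2 := D.hκ₀κ
  have e3 := D.hκ
  have e6 := D.hδ₁
  have e7 := D.hκ₀
  have e8 := D.hδ₁κ
  have e9 := D.hρ
  have hw : ‖(0 : ℂ)‖ < 2 * ρ := by rw [norm_zero]; linarith
  by_cases H : ∃ k : ℤ, ‖t - xi b k‖ < δ₁ / 2
  · obtain ⟨k, hk⟩ := H
    rw [D.F3 k hk]
    obtain ⟨n, hn⟩ := shift_par b k
    rw [hn t] at hk
    have h6 := (D.hΦΓ (par k) (t + ((-n : ℤ) : ℂ)) (by linarith) (by
      have : (t + ((-n : ℤ) : ℂ)).im = t.im := by simp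
      rw [this]; linarith)).2
    rw [D.shift (-n) t 0 (by linarith) (by linarith) (by simpa using D.hr),
      per_shift D.hper (-n) (by linarith) (by linarith)] at h6
    exact h6
  · push Not at H
    have haw : ∀ k : ℤ, δ₁ / 8 < ‖t - xi b k‖ := fun k => by linarith [H k]
    rw [D.F4 hw h1 h2 haw, D.hX.zero t (D.mem hw h1 h2 haw)]

theorem real (D : GD b κ r κ₀ R κ'' δ₁ ρ r₁ C κ₁ Z s₁ u Γ Φ X) {X₀ : ℝ → ℝ → ℝ}
    (hX₀ : RX r Z X₀) (hreal : ∀ t w : ℝ, |w| < 2 * ρ → |X₀ t w - t| < κ₁) {t w : ℝ}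
    (hw : |w| < 2 * ρ) : GG b δ₁ Z Γ Φ X t w = Γ (X₀ t w) := by
  have e1 := D.heρ
  have e11 := D.heρ2
  have e2 := D.hκ₀κ
  have e3 := D.hκ
  have e4 := D.hρr
  have e5 := D.hr₁r
  have e6 := D.hδ₁
  have e7 := D.hκ₀
  have e8 := D.hδ₁b
  have e9 := D.hρ
  have e10 := D.hρb
  have haw : ∀ k : ℤ, δ₁ / 8 < ‖(t : ℂ) - xi b k‖ := by
    intro k
    have h3 := Complex.abs_im_le_norm ((t : ℂ) - xi b k)
    rw [Complex.sub_im, xi_im, Complex.ofReal_im] at h3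
    have h4 := neg_le_abs (0 - b)
    linarith
  have hwn : ‖(w : ℂ)‖ < 2 * ρ := by rwa [Complex.norm_real, Real.norm_eq_abs]
  have h1 : -(κ₀ / 2) < (t : ℂ).im := by rw [Complex.ofReal_im]; linarith
  have h2 : (t : ℂ).im < b - eps * ρ := by
    rw [Complex.ofReal_im]; linarith
  rw [D.F4 hwn h1 h2 haw, D.hX.uniq t w (D.mem hwn h1 h2 haw) (X₀ t w) ?_ ?_]
  · have := hreal t w (by linarith)
    rw [← Complex.ofReal_sub, Complex.norm_real, Real.norm_eq_abs]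
    exact this
  · exact hX₀.eq t w (by linarith)

theorem reg (D : GD b κ r κ₀ R κ'' δ₁ ρ r₁ C κ₁ Z s₁ u Γ Φ X) {x₀ : ℂ} (hx₀ : x₀.im = b)
    (hk : ∀ k : ℤ, δ₁ < ‖x₀ - xi b k‖) : JD (GG b δ₁ Z Γ Φ X)
      {p | ‖p.2‖ < 2 * ρ ∧ ‖p.1 - x₀‖ < δ₁ / 4 ∧ p.1.im < b - eps * ρ} := by
  have e1 := D.heρ
  have e2 := D.hκ₀κ
  have e3 := D.hκ
  have e6 := D.hδ₁
  have e7 := D.hκ₀
  have e8 := D.hδ₁b
  have hdom : ∀ p : ℂ × ℂ, p ∈ {p : ℂ × ℂ | ‖p.2‖ < 2 * ρ ∧ ‖p.1 - x₀‖ < δ₁ / 4 ∧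
      p.1.im < b - eps * ρ} → ‖p.2‖ < 2 * ρ ∧ -(κ₀ / 2) < p.1.im ∧ p.1.im < b - eps * ρ ∧
      ∀ k : ℤ, δ₁ / 8 < ‖p.1 - xi b k‖ := by
    rintro p ⟨h1, h2, h3⟩
    have h4 := im_near h2.le
    rw [hx₀] at h4
    refine ⟨h1, by linarith [h4.1], h3, fun k => ?_⟩
    have h5 := hk k
    have h6 : x₀ - xi b k = (p.1 - xi b k) - (p.1 - x₀) := by ring
    rw [h6] at h5
    have h7 := norm_sub_le (p.1 - xi b k) (p.1 - x₀)
    linarith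
  have hd : DifferentiableOn ℂ (fun p : ℂ × ℂ => Γ (X p.1 p.2))
      {p : ℂ × ℂ | ‖p.2‖ < 2 * ρ ∧ ‖p.1 - x₀‖ < δ₁ / 4 ∧ p.1.im < b - eps * ρ} := by
    refine DifferentiableOn.comp (g := Γ) (f := fun p : ℂ × ℂ => X p.1 p.2) D.hΓ ?_ ?_
    · refine D.hX.dX.mono fun p hp => ?_
      obtain ⟨h1, h2, h3, h4⟩ := hdom p hp
      exact D.mem h1 h2 h3 h4
    · intro p hp
      obtain ⟨h1, h2, h3, h4⟩ := hdom p hp
      have h7 := D.near h1 h2 h3 h4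
      exact ⟨by linarith [h7.2.1], by linarith [h7.2.2]⟩
  refine hd.congr fun p hp => ?_
  obtain ⟨h1, h2, h3, h4⟩ := hdom p hp
  exact D.F4 h1 h2 h3 h4

end GD

theorem gREG_of (hNS : NS0) : GREG := by
  intro b κ r Z s₁ tI U h X₀ hX₀ κ₀ Γ hκ₀ hκ₀κ hΓ hper R κ'' Φ hR hκ'' hΦ hΦΓ
  have hκ := h.hκ
  have hr := h.hr
  have hb : 0 < b := lt_trans h.hκ h.hκb
  have he := eps_pos
  have hN := fun j : Fin 2 => hNS (xi b (j : ℕ)) κ r (s₁ j) Z (tI j) (U j) (h.iso j) R (eps / 4) hR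
    (by linarith)
  choose δN hδN hNN using hN
  refine ⟨min (min (δN 0) (δN 1)) (min (min κ'' (1 / 2)) b), by
    have := hδN 0; have := hδN 1; positivity, ?_⟩
  intro δ₁ hδ₁ hδ₁lt
  have hδN' : ∀ j : Fin 2, δ₁ < δN j := by
    intro j
    have h0 := hδ₁lt.trans_le ((min_le_left _ _).trans (min_le_left _ _))
    have h1 := hδ₁lt.trans_le ((min_le_left _ _).trans (min_le_right _ _))
    fin_cases j
    · exact h0
    · exact h1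
  have hδ₁κ : δ₁ < κ'' :=
    hδ₁lt.trans_le ((min_le_right _ _).trans ((min_le_left _ _).trans (min_le_left _ _)))
  have hδ₁h : δ₁ < 1 / 2 :=
    hδ₁lt.trans_le ((min_le_right _ _).trans ((min_le_left _ _).trans (min_le_right _ _)))
  have hδ₁b : δ₁ < b := hδ₁lt.trans_le ((min_le_right _ _).trans (min_le_right _ _))
  obtain ⟨r₁, C, κ₁, X, hr₁r, -, -, hC, hX⟩ := iNV b κ r Z s₁ tI U h (δ₁ / 8) (by linarith) 1
    one_pos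
  obtain ⟨ρ₁, hρ₁, hρ₁r, hreal⟩ := real_lemma hr hX₀ hX.hκ₁
  have hr₁ := hX.hr₁
  refine ⟨min (min (min (r₁ / 2) (ρ₁ / 2)) (min κ₀ (eps / (8 * (C + 1)))))
    (min (min (δ₁ / 2) κ'') b), by positivity, ?_⟩
  intro ρ hρ hρlt
  have hρ1 : 2 * ρ < r₁ := by
    have := hρlt.trans_le ((min_le_left _ _).trans ((min_le_left _ _).trans (min_le_left _ _)))
    linarith
  have hρ2 : 2 * ρ < ρ₁ := by
    have := hρlt.trans_le ((min_le_left _ _).trans ((min_le_left _ _).trans (min_le_right _ _)))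
    linarith
  have hρ4 : 8 * (C + 1) * ρ < eps := by
    have := hρlt.trans_le ((min_le_left _ _).trans ((min_le_right _ _).trans (min_le_right _ _)))
    rw [lt_div_iff₀ (by positivity)] at this; linarith
  have hρ5 : 2 * ρ < δ₁ := by
    have := hρlt.trans_le ((min_le_right _ _).trans ((min_le_left _ _).trans (min_le_left _ _)))
    linarith
  have D : GD b κ r κ₀ R κ'' δ₁ ρ r₁ C κ₁ Z s₁ (fun j => U j 0 0) Γ Φ X :=
    { hκ := hκ, hr := hr, hb := hb, hκ₀ := hκ₀, hκ₀κ := hκ₀κ, hδ₁ := hδ₁, hδ₁b := hδ₁b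
      hδ₁h := hδ₁h, hδ₁κ := hδ₁κ, hρ := hρ, hρr := hρ1, hr₁r := hr₁r
      hρκ := hρlt.trans_le ((min_le_left _ _).trans ((min_le_right _ _).trans (min_le_left _ _)))
      hρC := hρ4
      hρκ'' := hρlt.trans_le ((min_le_right _ _).trans ((min_le_left _ _).trans (min_le_right _ _)))
      hρb := hρlt.trans_le ((min_le_right _ _).trans (min_le_right _ _))
      hC := hC, hX := hX, dZ := h.dZ
      shift := fun n t w h1 h2 h3 => LF_shift h n h1 h2 h3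
      hΓ := hΓ, hper := hper, hΦ := hΦ, hΦΓ := hΦΓ
      F1 := by
        intro j t w hw h1 h2
        refine hNN j t w (by linarith [hδN' j]) (by linarith [hδN' j]) ?_
        rw [xi_im]
        nlinarith }
  refine ⟨GG b δ₁ Z Γ Φ X, D.jd, D.bdd, fun t w hp => D.per hp, fun t h1 h2 => D.zero h1 h2,
    fun t w hw => D.real hX₀ (fun t w hw => hreal t w (by linarith)) hw,
    fun x₀ hx₀ hk => D.reg hx₀ hk, ?_⟩
  intro j t w _ h2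
  have := D.F3 ((j : ℕ) : ℤ) (t := t) (w := w) (by linarith)
  rw [par_fin] at this
  exact this

end Vale.Agent.P097.H795
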