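import Vale.Agent.P097.LR.Defs

/-! # P097 / LR : [INV] uniform local inverse -/

set_option linter.all false

open scoped Topology
open Filter Metric Set

namespace Vale.Agent.P097.H795

open Vale.Agent.P097.LR

variable {b κ r : ℝ} {Z : ℂ → ℂ → ℂ} {s₁ : Fin 2 → ℂ} {tI : Fin 2 → ℂ → ℂ}
  {U : Fin 2 → ℂ → ℂ → ℂ}

theorem isOpen_dom : IsOpen {p : ℂ × ℂ | -κ < p.1.im ∧ p.1.im < b + κ ∧ ‖p.2‖ < r} := by
  have h1 : Continuous fun p : ℂ × ℂ => p.1.im := by fun_prop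
  have h2 : Continuous fun p : ℂ × ℂ => ‖p.2‖ := by fun_prop
  exact (isOpen_lt continuous_const h1).inter
    ((isOpen_lt h1 continuous_const).inter (isOpen_lt h2 continuous_const))

theorem isOpen_strip (c d : ℝ) : IsOpen {t : ℂ | c < t.im ∧ t.im < d} := by
  have h1 : Continuous fun p : ℂ => p.im := by fun_prop
  exact (isOpen_lt continuous_const h1).inter (isOpen_lt h1 continuous_const)

theorem LF_at (h : LF b κ r Z s₁ tI U) {t w : ℂ} (h1 : -κ < t.im) (h2 : t.im < b + κ)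
    (h3 : ‖w‖ < r) : DifferentiableAt ℂ (fun p : ℂ × ℂ => Z p.1 p.2) (t, w) :=
  (h.dZ (t, w) ⟨h1, h2, h3⟩).differentiableAt (isOpen_dom.mem_nhds ⟨h1, h2, h3⟩)

theorem LF_at0 (h : LF b κ r Z s₁ tI U) {t : ℂ} (h1 : -κ < t.im) (h2 : t.im < b + κ) :
    DifferentiableAt ℂ (fun t : ℂ => Z t 0) t := by
  have h3 : DifferentiableAt ℂ (fun p : ℂ × ℂ => Z p.1 p.2) (t, 0) :=
    LF_at h h1 h2 (by simpa using h.hr)
  exact DifferentiableAt.comp (f := fun t : ℂ => (t, (0 : ℂ))) t h3 (by fun_prop)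

theorem LF_atw (h : LF b κ r Z s₁ tI U) {t w : ℂ} (h1 : -κ < t.im) (h2 : t.im < b + κ)
    (h3 : ‖w‖ < r) : DifferentiableAt ℂ (fun w : ℂ => Z t w) w :=
  DifferentiableAt.comp (f := fun w : ℂ => (t, w)) w (LF_at h h1 h2 h3) (by fun_prop)

theorem LF_shift (h : LF b κ r Z s₁ tI U) (n : ℤ) {t w : ℂ} (h1 : -κ < t.im)
    (h2 : t.im < b + κ) (h3 : ‖w‖ < r) : Z (t + n) w = Z t w := by
  induction n using Int.induction_on with
  | zero => simp
  | succ n ih =>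
    have : t + ((n : ℤ) + 1 : ℤ) = (t + (n : ℤ)) + 1 := by push_cast; ring
    rw [this, h.per _ w (by simpa using h1) (by simpa using h2) h3, ih]
  | pred n ih =>
    have e : (t + ((-(n : ℤ) - 1 : ℤ) : ℂ)) + 1 = t + ((-(n : ℤ) : ℤ) : ℂ) := by push_cast; ring
    have := h.per (t + ((-(n : ℤ) - 1 : ℤ) : ℂ)) w (by simpa using h1) (by simpa using h2) h3
    rw [e] at this
    rw [← this, ih]

/-- closed strip minus discs, one period -/
def KS (b κ δ : ℝ) : Set ℂ :=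
  (Icc (0 : ℝ) 1 ×ℂ Icc (-(κ / 2)) (b + κ / 2)) ∩ {t | ∀ k : ℤ, δ ≤ ‖t - xi b k‖}

theorem isCompact_KS (b κ δ : ℝ) : IsCompact (KS b κ δ) := by
  refine (isCompact_Icc.reProdIm isCompact_Icc).inter_right ?_
  have : {t : ℂ | ∀ k : ℤ, δ ≤ ‖t - xi b k‖} = ⋂ k : ℤ, {t : ℂ | δ ≤ ‖t - xi b k‖} := by
    ext t; simp
  rw [this]
  exact isClosed_iInter fun k => isClosed_le continuous_const (by fun_prop)

theorem xi_add (b : ℝ) (k n : ℤ) : xi b k + n = xi b (k + 2 * n) := by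
  unfold xi; push_cast; ring

/-- a lower bound of difference quotients is a lower bound of the derivative -/
theorem deriv_ne_of_lip {f : ℂ → ℂ} {x : ℂ} {m : ℝ} (hm : 0 < m) (hf : DifferentiableAt ℂ f x)
    (hl : ∀ᶠ y in 𝓝 x, m * ‖y - x‖ ≤ ‖f y - f x‖) : deriv f x ≠ 0 := by
  have h1 := hasDerivAt_iff_tendsto_slope.1 hf.hasDerivAt
  have h2 : Tendsto (fun y => ‖slope f x y‖) (𝓝[≠] x) (𝓝 ‖deriv f x‖) := h1.norm
  have h3 : m ≤ ‖deriv f x‖ := by
    refine ge_of_tendsto h2 ?_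
    filter_upwards [self_mem_nhdsWithin, mem_nhdsWithin_of_mem_nhds hl] with y hy hy2
    have hy3 : 0 < ‖y - x‖ := norm_pos_iff.2 (sub_ne_zero.2 hy)
    rw [slope_def_field, norm_div, le_div_iff₀ hy3]
    exact hy2
  intro h0
  rw [h0, norm_zero] at h3
  linarith

theorem inj_lemma (h : LF b κ r Z s₁ tI U) {δ : ℝ} (hδ : 0 < δ) {κ₂ : ℝ} (hκ₂ : 0 < κ₂) :
    ∃ m κ₁ : ℝ, 0 < m ∧ 0 < κ₁ ∧ κ₁ ≤ κ₂ ∧ κ₁ ≤ κ / 4 ∧ ∀ t : ℂ, -(κ / 2) ≤ t.im →
      t.im ≤ b + κ / 2 → (∀ k : ℤ, δ ≤ ‖t - xi b k‖) → ∀ x y : ℂ, ‖x - t‖ < κ₁ → ‖y - t‖ < κ₁ →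
        m * ‖x - y‖ ≤ ‖Z x 0 - Z y 0‖ := by
  have hκ := h.hκ
  set f' : ℂ → ℂ := deriv (fun t => Z t 0) with hf'
  have hd : DifferentiableOn ℂ (fun t : ℂ => Z t 0) {t : ℂ | -κ < t.im ∧ t.im < b + κ} :=
    fun t ht => (LF_at0 h ht.1 ht.2).differentiableWithinAt
  have hd' : DifferentiableOn ℂ f' {t : ℂ | -κ < t.im ∧ t.im < b + κ} :=
    hd.deriv (isOpen_strip _ _)
  -- lower bound of the derivative on `KS`
  obtain ⟨C, hC⟩ : ∃ C : ℝ, ∀ t ∈ KS b κ δ, ‖(f' t)⁻¹‖ ≤ C := by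
    refine (isCompact_KS b κ δ).exists_bound_of_continuousOn (f := fun t => (f' t)⁻¹) ?_
    refine ContinuousOn.inv₀ (hd'.continuousOn.mono ?_) ?_
    · rintro t ⟨ht, -⟩
      rw [Complex.mem_reProdIm] at ht
      exact ⟨by linarith [ht.2.1], by linarith [ht.2.2]⟩
    · rintro t ⟨ht, ht2⟩
      rw [Complex.mem_reProdIm] at ht
      refine h.dne t (by linarith [ht.2.1]) (by linarith [ht.2.2]) fun k hk => ?_
      have := ht2 k
      rw [hk, sub_self, norm_zero] at this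
      linarith
  set m : ℝ := 1 / (2 * (|C| + 1)) with hm
  have hm0 : 0 < m := by rw [hm]; positivity
  have hlow : ∀ t ∈ KS b κ δ, 2 * m ≤ ‖f' t‖ := by
    intro t ht
    have h1 := hC t ht
    have h2 : f' t ≠ 0 := by
      obtain ⟨ht1, ht2⟩ := ht
      rw [Complex.mem_reProdIm] at ht1
      refine h.dne t (by linarith [ht1.2.1]) (by linarith [ht1.2.2]) fun k hk => ?_
      have := ht2 k
      rw [hk, sub_self, norm_zero] at this
      linarith
    have h3 : 0 < ‖f' t‖ := norm_pos_iff.2 h2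
    rw [norm_inv] at h1
    have h4 : ‖f' t‖⁻¹ ≤ |C| + 1 := h1.trans (by linarith [le_abs_self C])
    have h5 : 0 < |C| + 1 := by positivity
    have h6 : (|C| + 1)⁻¹ ≤ ‖f' t‖ := by
      rw [inv_le_comm₀ h5 h3]; exact h4
    have h7 : 2 * m = (|C| + 1)⁻¹ := by rw [hm]; field_simp
    rw [h7]; exact h6
  -- uniform continuity
  have hK1 : IsCompact (Icc (-1 : ℝ) 2 ×ℂ Icc (-(3 * κ / 4)) (b + 3 * κ / 4)) :=
    isCompact_Icc.reProdIm isCompact_Icc
  have huc : UniformContinuousOn f' (Icc (-1 : ℝ) 2 ×ℂ Icc (-(3 * κ / 4)) (b + 3 * κ / 4)) := by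
    refine hK1.uniformContinuousOn_of_continuous (hd'.continuousOn.mono ?_)
    intro t ht
    rw [Complex.mem_reProdIm] at ht
    exact ⟨by linarith [ht.2.1], by linarith [ht.2.2]⟩
  obtain ⟨d, hd0, hdd⟩ := Metric.uniformContinuousOn_iff.1 huc m hm0
  refine ⟨m, min (min d κ₂) (min (κ / 4) 1), hm0, by positivity,
    (min_le_left _ _).trans (min_le_right _ _), (min_le_right _ _).trans (min_le_left _ _), ?_⟩
  have main : ∀ t ∈ KS b κ δ, ∀ x y : ℂ, ‖x - t‖ < min (min d κ₂) (min (κ / 4) 1) →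
      ‖y - t‖ < min (min d κ₂) (min (κ / 4) 1) → m * ‖x - y‖ ≤ ‖Z x 0 - Z y 0‖ := by
    intro t ht x y hx hy
    have htm := ht
    obtain ⟨ht1, ht2⟩ := ht
    rw [Complex.mem_reProdIm] at ht1
    obtain ⟨⟨hr1, hr2⟩, ⟨hi1, hi2⟩⟩ := ht1
    have hball : ∀ z : ℂ, z ∈ ball t (min (min d κ₂) (min (κ / 4) 1)) →
        (-κ < z.im ∧ z.im < b + κ) ∧ ‖f' z - f' t‖ ≤ m := by
      intro z hz
      rw [mem_ball, dist_eq_norm] at hz
      have h1 : ‖z - t‖ < κ / 4 := hz.trans_le ((min_le_right _ _).trans (min_le_left _ _))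
      have h2 : ‖z - t‖ < 1 := hz.trans_le ((min_le_right _ _).trans (min_le_right _ _))
      have h3 : ‖z - t‖ < d := hz.trans_le ((min_le_left _ _).trans (min_le_left _ _))
      have h4 := (Complex.abs_im_le_norm (z - t)).trans_lt h1
      have h5 := (Complex.abs_re_le_norm (z - t)).trans_lt h2
      rw [Complex.sub_im, abs_lt] at h4
      rw [Complex.sub_re, abs_lt] at h5
      refine ⟨⟨by linarith [h4.1], by linarith [h4.2]⟩, ?_⟩
      have := hdd z (by rw [Complex.mem_reProdIm]; exact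
        ⟨⟨by linarith [h5.1], by linarith [h5.2]⟩, ⟨by linarith [h4.1], by linarith [h4.2]⟩⟩) t
        (by rw [Complex.mem_reProdIm]; exact
        ⟨⟨by linarith, by linarith⟩, ⟨by linarith, by linarith⟩⟩) (by rwa [dist_eq_norm])
      rw [dist_eq_norm] at this
      exact this.le
    have hmvt := (convex_ball t (min (min d κ₂) (min (κ / 4) 1))).norm_image_sub_le_of_norm_hasDerivWithin_le
      (f := fun z => Z z 0 - f' t * z) (f' := fun z => f' z - f' t) (C := m) (x := y) (y := x)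
      (fun z hz => ((((LF_at0 h (hball z hz).1.1 (hball z hz).1.2).hasDerivAt).sub
        ((hasDerivAt_id z).const_mul (f' t))).congr_deriv (by simp [hf'])).hasDerivWithinAt)
      (fun z hz => (hball z hz).2) (by rwa [mem_ball, dist_eq_norm]) (by rwa [mem_ball, dist_eq_norm])
    have h8 : (Z x 0 - f' t * x) - (Z y 0 - f' t * y) = (Z x 0 - Z y 0) - f' t * (x - y) := by ring
    rw [h8] at hmvt
    have h9 : ‖f' t * (x - y)‖ - ‖Z x 0 - Z y 0‖ ≤ ‖(Z x 0 - Z y 0) - f' t * (x - y)‖ := by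
      rw [norm_sub_rev (Z x 0 - Z y 0)]
      exact norm_sub_norm_le _ _
    rw [norm_mul] at h9
    have h10 := mul_le_mul_of_nonneg_right (hlow t htm) (norm_nonneg (x - y))
    nlinarith
  intro t ht1 ht2 ht3 x y hx hy
  set n : ℤ := ⌊t.re⌋ with hn
  have hx' : -κ < x.im ∧ x.im < b + κ := by
    have h1 := (Complex.abs_im_le_norm (x - t)).trans_lt
      (hx.trans_le ((min_le_right _ _).trans (min_le_left _ _)))
    rw [Complex.sub_im, abs_lt] at h1
    exact ⟨by linarith [h1.1], by linarith [h1.2]⟩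
  have hy' : -κ < y.im ∧ y.im < b + κ := by
    have h1 := (Complex.abs_im_le_norm (y - t)).trans_lt
      (hy.trans_le ((min_le_right _ _).trans (min_le_left _ _)))
    rw [Complex.sub_im, abs_lt] at h1
    exact ⟨by linarith [h1.1], by linarith [h1.2]⟩
  have hr0 : ‖(0 : ℂ)‖ < r := by simpa using h.hr
  have hmem : t + ((-n : ℤ) : ℂ) ∈ KS b κ δ := by
    refine ⟨?_, fun k => ?_⟩
    · rw [Complex.mem_reProdIm]
      have h1 : (t + ((-n : ℤ) : ℂ)).re = t.re - n := by simp [sub_eq_add_neg]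
      have h2 : (t + ((-n : ℤ) : ℂ)).im = t.im := by simp
      rw [h1, h2]
      exact ⟨⟨by linarith [Int.floor_le t.re], by linarith [Int.lt_floor_add_one t.re]⟩,
        ⟨ht1, ht2⟩⟩
    · have h1 := ht3 (k + 2 * n)
      rw [← xi_add] at h1
      have h2 : t + ((-n : ℤ) : ℂ) - xi b k = t - (xi b k + n) := by push_cast; ring
      rw [h2]; exact h1
  have e1 : x + ((-n : ℤ) : ℂ) - (t + ((-n : ℤ) : ℂ)) = x - t := by ring
  have e2 : y + ((-n : ℤ) : ℂ) - (t + ((-n : ℤ) : ℂ)) = y - t := by ring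
  have h1 := main _ hmem (x + ((-n : ℤ) : ℂ)) (y + ((-n : ℤ) : ℂ)) (by rw [e1]; exact hx)
    (by rw [e2]; exact hy)
  rw [LF_shift h (-n) hx'.1 hx'.2 hr0, LF_shift h (-n) hy'.1 hy'.2 hr0,
    show x + ((-n : ℤ) : ℂ) - (y + ((-n : ℤ) : ℂ)) = x - y by ring] at h1
  exact h1

/-- `Z` is bounded on the closed strip -/
theorem bdd_lemma (h : LF b κ r Z s₁ tI U) : ∃ M : ℝ, 0 ≤ M ∧ ∀ t w : ℂ, -(κ / 2) ≤ t.im →
    t.im ≤ b + κ / 2 → ‖w‖ ≤ r / 2 → ‖Z t w‖ ≤ M := by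
  have hκ := h.hκ
  have hr := h.hr
  have hK : IsCompact ((Icc (0 : ℝ) 1 ×ℂ Icc (-(κ / 2)) (b + κ / 2)) ×ˢ closedBall (0 : ℂ) (r / 2)) :=
    (isCompact_Icc.reProdIm isCompact_Icc).prod (isCompact_closedBall _ _)
  obtain ⟨C, hC⟩ := hK.exists_bound_of_continuousOn (f := fun p : ℂ × ℂ => Z p.1 p.2)
    (h.dZ.continuousOn.mono (by
      rintro ⟨t, w⟩ ⟨ht, hw⟩
      simp only at ht hw
      rw [Complex.mem_reProdIm] at ht
      rw [mem_closedBall, dist_zero_right] at hw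
      exact ⟨by simp only; linarith [ht.2.1], by simp only; linarith [ht.2.2],
        by simp only; linarith⟩))
  refine ⟨|C|, abs_nonneg _, fun t w h1 h2 h3 => ?_⟩
  have h4 := hC (t + ((-⌊t.re⌋ : ℤ) : ℂ), w) (by
    refine ⟨?_, ?_⟩
    · simp only
      rw [Complex.mem_reProdIm]
      have e1 : (t + ((-⌊t.re⌋ : ℤ) : ℂ)).re = t.re - ⌊t.re⌋ := by simp [sub_eq_add_neg]
      have e2 : (t + ((-⌊t.re⌋ : ℤ) : ℂ)).im = t.im := by simp
      rw [e1, e2]
      exact ⟨⟨by linarith [Int.floor_le t.re], by linarith [Int.lt_floor_add_one t.re]⟩,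
        ⟨h1, h2⟩⟩
    · simpa using h3)
  simp only at h4
  rw [LF_shift h _ (by linarith) (by linarith) (by linarith)] at h4
  exact h4.trans (le_abs_self C)

/-- an even holomorphic function is quadratically close to its centre value -/
theorem quad_of_even {f : ℂ → ℂ} {R M : ℝ} (hR : 0 < R) (hM : 0 ≤ M)
    (hf : DifferentiableOn ℂ f (ball 0 R)) (hb : ∀ w ∈ ball (0 : ℂ) R, ‖f w‖ ≤ M)
    (he : ∀ w ∈ ball (0 : ℂ) R, f (-w) = f w) :
    ∀ w ∈ ball (0 : ℂ) R, ‖f w - f 0‖ ≤ (((2 * M + 1) / R + 1) / R) * ‖w‖ ^ 2 := by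
  have h0 : (0 : ℂ) ∈ ball (0 : ℂ) R := mem_ball_self hR
  have hnhds : ball (0 : ℂ) R ∈ 𝓝 (0 : ℂ) := isOpen_ball.mem_nhds h0
  have hd0 : deriv f 0 = 0 := by
    have h1 : (fun w => f (-w)) =ᶠ[𝓝 0] f := by
      filter_upwards [hnhds] with w hw using he w hw
    have h2 := h1.deriv_eq
    rw [deriv_comp_neg] at h2
    rw [neg_zero] at h2
    have h3 : (2 : ℂ) * deriv f 0 = 0 := by linear_combination -h2
    simpa using h3
  have hmaps : MapsTo f (ball 0 R) (ball (f 0) (2 * M + 1)) := by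
    intro w hw
    rw [mem_ball, dist_eq_norm]
    calc ‖f w - f 0‖ ≤ ‖f w‖ + ‖f 0‖ := norm_sub_le _ _
      _ ≤ M + M := add_le_add (hb w hw) (hb 0 h0)
      _ < 2 * M + 1 := by linarith
  have hg : ∀ w ∈ ball (0 : ℂ) R, ‖dslope f 0 w‖ ≤ (2 * M + 1) / R := fun w hw =>
    Complex.norm_dslope_le_div_of_mapsTo_ball hf (hmaps.mono_right ball_subset_closedBall) hw
  have hgd : DifferentiableOn ℂ (dslope f 0) (ball 0 R) :=
    (Complex.differentiableOn_dslope hnhds).2 hf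
  have hg0 : dslope f 0 0 = 0 := by rw [dslope_same]; exact hd0
  have hmaps2 : MapsTo (dslope f 0) (ball 0 R) (ball (dslope f 0 0) ((2 * M + 1) / R + 1)) := by
    intro w hw
    rw [mem_ball, dist_eq_norm, hg0, sub_zero]
    linarith [hg w hw]
  intro w hw
  have h1 := Complex.norm_dslope_le_div_of_mapsTo_ball hgd (hmaps2.mono_right ball_subset_closedBall) hw
  have e1 : f w - f 0 = w * dslope f 0 w := by
    have := sub_smul_dslope f 0 w
    simpa using this.symm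
  have e2 : dslope f 0 w = w * dslope (dslope f 0) 0 w := by
    have := sub_smul_dslope (dslope f 0) 0 w
    rw [hg0] at this
    simpa using this.symm
  rw [e1, e2, norm_mul, norm_mul]
  have h3 : ‖w‖ * (‖w‖ * ‖dslope (dslope f 0) 0 w‖) = ‖dslope (dslope f 0) 0 w‖ * ‖w‖ ^ 2 := by ring
  rw [h3]
  exact mul_le_mul_of_nonneg_right h1 (by positivity)

theorem quad_lemma (h : LF b κ r Z s₁ tI U) : ∃ C : ℝ, 0 ≤ C ∧ ∀ t w : ℂ, -(κ / 2) ≤ t.im →
    t.im ≤ b + κ / 2 → ‖w‖ < r / 2 → ‖Z t w - Z t 0‖ ≤ C * ‖w‖ ^ 2 := by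
  have hκ := h.hκ
  have hr := h.hr
  obtain ⟨M, hM0, hM⟩ := bdd_lemma h
  refine ⟨(((2 * M + 1) / (r / 2) + 1) / (r / 2)), by positivity, fun t w h1 h2 h3 => ?_⟩
  refine quad_of_even (f := fun w => Z t w) (R := r / 2) (by linarith) hM0 ?_ ?_ ?_ w
    (by rwa [mem_ball, dist_zero_right])
  · intro z hz
    rw [mem_ball, dist_zero_right] at hz
    exact (LF_atw h (by linarith) (by linarith) (by linarith)).differentiableWithinAt
  · intro z hz
    rw [mem_ball, dist_zero_right] at hz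
    exact hM t z h1 h2 hz.le
  · intro z hz
    rw [mem_ball, dist_zero_right] at hz
    exact h.even t z (by linarith) (by linarith) (by linarith)

theorem iNV : INV := by
  intro b κ r Z s₁ tI U h δ hδ κ₂ hκ₂
  classical
  have hκ := h.hκ
  have hr := h.hr
  obtain ⟨m, κ₁, hm, hκ₁, hκ₁₂, hκ₁κ, hinj⟩ := inj_lemma h hδ hκ₂
  obtain ⟨C, hC, hquad⟩ := quad_lemma h
  -- choice of `r₁`
  obtain ⟨r₁, hr₁, hr₁r, hr₁κ, hr₁C⟩ : ∃ r₁ : ℝ, 0 < r₁ ∧ r₁ ≤ r / 2 ∧ r₁ ≤ κ₂ ∧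
      C * r₁ ^ 2 < m * κ₁ / 4 := by
    have h1 : Tendsto (fun x : ℝ => C * x ^ 2) (𝓝[>] 0) (𝓝 0) := by
      have : Tendsto (fun x : ℝ => C * x ^ 2) (𝓝 0) (𝓝 (C * 0 ^ 2)) := by
        exact (by fun_prop : Continuous fun x : ℝ => C * x ^ 2).tendsto 0
      simpa using this.mono_left nhdsWithin_le_nhds
    have h2 := h1.eventually_lt_const (show (0 : ℝ) < m * κ₁ / 4 by positivity)
    have h3 : ∀ᶠ x : ℝ in 𝓝[>] 0, x < min (r / 2) κ₂ :=
      mem_nhdsWithin_of_mem_nhds (Iio_mem_nhds (by positivity))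
    obtain ⟨x, hx1, hx2, hx3⟩ := (h2.and (h3.and self_mem_nhdsWithin)).exists
    exact ⟨x, hx3, hx2.le.trans (min_le_left _ _), hx2.le.trans (min_le_right _ _), hx1⟩
  -- existence
  have hex : ∀ t w : ℂ, (t, w) ∈ XD b κ δ r₁ → ∃ x : ℂ, ‖x - t‖ < κ₁ ∧ Z x 0 = Z t w := by
    rintro t w ⟨hw, ht1, ht2, ht3⟩
    simp only at hw ht1 ht2 ht3
    have hIm : ∀ z : ℂ, ‖z - t‖ ≤ κ₁ / 2 → -κ < z.im ∧ z.im < b + κ := by
      intro z hz
      have h4 := (Complex.abs_im_le_norm (z - t)).trans hz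
      rw [Complex.sub_im, abs_le] at h4
      exact ⟨by linarith [h4.1], by linarith [h4.2]⟩
    have hdc : DiffContOnCl ℂ (fun x => Z x 0) (ball t (κ₁ / 2)) := by
      refine DifferentiableOn.diffContOnCl ?_
      rw [closure_ball t (by positivity : κ₁ / 2 ≠ 0)]
      intro z hz
      rw [mem_closedBall, dist_eq_norm] at hz
      exact (LF_at0 h (hIm z hz).1 (hIm z hz).2).differentiableWithinAt
    have hsp : ∀ z ∈ sphere t (κ₁ / 2), m * κ₁ / 2 ≤ ‖Z z 0 - Z t 0‖ := by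
      intro z hz
      rw [mem_sphere, dist_eq_norm] at hz
      have := hinj t ht1.le ht2.le (fun k => (ht3 k).le) z t (by rw [hz]; linarith)
        (by simpa using hκ₁)
      rw [hz] at this
      linarith
    have hfr : ∃ᶠ z in 𝓝 t, Z z 0 ≠ Z t 0 := by
      have h5 : ∀ᶠ z in 𝓝[≠] t, Z z 0 ≠ Z t 0 := by
        have h6 : ball t κ₁ ∈ 𝓝[≠] t := mem_nhdsWithin_of_mem_nhds (ball_mem_nhds t hκ₁)
        filter_upwards [self_mem_nhdsWithin, h6] with z hz hz2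
        rw [mem_ball, dist_eq_norm] at hz2
        intro heq
        have := hinj t ht1.le ht2.le (fun k => (ht3 k).le) z t hz2 (by simpa using hκ₁)
        rw [heq, sub_self, norm_zero] at this
        have h7 : 0 < ‖z - t‖ := norm_pos_iff.2 (sub_ne_zero.2 hz)
        nlinarith
      exact h5.frequently.filter_mono nhdsWithin_le_nhds
    have hsub := hdc.ball_subset_image_closedBall (by positivity : 0 < κ₁ / 2) hsp hfr
    have hin : Z t w ∈ ball (Z t 0) (m * κ₁ / 2 / 2) := by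
      rw [mem_ball, dist_eq_norm]
      have h8 := hquad t w ht1.le ht2.le (by linarith)
      have h9 : C * ‖w‖ ^ 2 ≤ C * r₁ ^ 2 := by gcongr
      linarith
    obtain ⟨x, hx1, hx2⟩ := hsub hin
    rw [mem_closedBall, dist_eq_norm] at hx1
    exact ⟨x, by linarith, hx2⟩
  have huniq : ∀ t w : ℂ, (t, w) ∈ XD b κ δ r₁ → ∀ x y : ℂ, ‖x - t‖ < κ₁ → ‖y - t‖ < κ₁ →
      Z x 0 = Z t w → Z y 0 = Z t w → x = y := by
    rintro t w ⟨hw, ht1, ht2, ht3⟩ x y hx hy hx2 hy2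
    simp only at hw ht1 ht2 ht3
    have := hinj t ht1.le ht2.le (fun k => (ht3 k).le) x y hx hy
    rw [hx2, hy2, sub_self, norm_zero] at this
    by_contra hne
    have h7 : 0 < ‖x - y‖ := norm_pos_iff.2 (sub_ne_zero.2 hne)
    nlinarith
  let X : ℂ → ℂ → ℂ := fun t w => if H : ∃ x : ℂ, ‖x - t‖ < κ₁ ∧ Z x 0 = Z t w then H.choose else 0
  have hX : ∀ t w : ℂ, (t, w) ∈ XD b κ δ r₁ → ‖X t w - t‖ < κ₁ ∧ Z (X t w) 0 = Z t w := by
    intro t w htw
    have H := hex t w htw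
    have : X t w = H.choose := by simp only [X]; rw [dif_pos H]
    rw [this]
    exact H.choose_spec
  have hr0 : ‖(0 : ℂ)‖ < r := by simpa using hr
  refine ⟨r₁, C / m, κ₁, X, by linarith, hr₁κ, hκ₁₂, by positivity, ?_⟩
  refine ⟨hr₁, hκ₁, ?_, ?_, ?_, ?_, ?_, ?_, ?_⟩
  · rw [div_mul_eq_mul_div, div_lt_iff₀ hm]; nlinarith
  · -- joint holomorphy
    rintro ⟨t₀, w₀⟩ hp
    have hx0 := hX t₀ w₀ hp
    have hpm := hp
    obtain ⟨hw, ht1, ht2, ht3⟩ := hpm
    simp only at hw ht1 ht2 ht3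
    set x₀ := X t₀ w₀ with hx₀
    have hx0im : -κ < x₀.im ∧ x₀.im < b + κ := by
      have h4 := (Complex.abs_im_le_norm (x₀ - t₀)).trans_lt hx0.1
      rw [Complex.sub_im, abs_lt] at h4
      exact ⟨by linarith [h4.1], by linarith [h4.2]⟩
    have hdo : DifferentiableOn ℂ (fun t : ℂ => Z t 0) {t : ℂ | -κ < t.im ∧ t.im < b + κ} :=
      fun t ht => (LF_at0 h ht.1 ht.2).differentiableWithinAt
    have hstrict : HasStrictDerivAt (fun x => Z x 0) (deriv (fun x => Z x 0) x₀) x₀ :=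
      (hdo.analyticAt ((isOpen_strip _ _).mem_nhds hx0im)).hasStrictDerivAt
    have hne : deriv (fun x => Z x 0) x₀ ≠ 0 := by
      refine deriv_ne_of_lip hm (LF_at0 h hx0im.1 hx0im.2) ?_
      have h5 : ∀ᶠ y in 𝓝 x₀, ‖y - t₀‖ < κ₁ :=
        (by fun_prop : Continuous fun y : ℂ => ‖y - t₀‖).continuousAt.eventually_lt_const hx0.1
      filter_upwards [h5] with y hy
      exact hinj t₀ ht1.le ht2.le (fun k => (ht3 k).le) y x₀ hy hx0.1
    let g : ℂ → ℂ := (hstrict.hasStrictFDerivAt_equiv hne).localInverse _ _ _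
    have hg1 : g (Z x₀ 0) = x₀ := (hstrict.hasStrictFDerivAt_equiv hne).localInverse_apply_image
    have hg2 : ∀ᶠ y in 𝓝 (Z x₀ 0), Z (g y) 0 = y :=
      (hstrict.hasStrictFDerivAt_equiv hne).eventually_right_inverse
    have hg3 : DifferentiableAt ℂ g (Z x₀ 0) :=
      (hstrict.hasStrictFDerivAt_equiv hne).to_localInverse.differentiableAt
    have hZat : DifferentiableAt ℂ (fun p : ℂ × ℂ => Z p.1 p.2) (t₀, w₀) :=
      LF_at h (by linarith) (by linarith) (by linarith)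
    have hZe : (fun p : ℂ × ℂ => Z p.1 p.2) (t₀, w₀) = Z x₀ 0 := hx0.2.symm
    have hcomp : DifferentiableAt ℂ (fun p : ℂ × ℂ => g (Z p.1 p.2)) (t₀, w₀) := by
      refine DifferentiableAt.comp (g := g) (f := fun p : ℂ × ℂ => Z p.1 p.2) (t₀, w₀) ?_ hZat
      have hZe' : Z t₀ w₀ = Z x₀ 0 := hx0.2.symm
      show DifferentiableAt ℂ g (Z t₀ w₀)
      rw [hZe']; exact hg3
    have hval : g (Z t₀ w₀) = x₀ := by
      have : Z t₀ w₀ = Z x₀ 0 := hx0.2.symm
      rw [this]; exact hg1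
    have hev1 : ∀ᶠ p : ℂ × ℂ in 𝓝 (t₀, w₀), ‖g (Z p.1 p.2) - p.1‖ < κ₁ := by
      have hc : ContinuousAt (fun p : ℂ × ℂ => ‖g (Z p.1 p.2) - p.1‖) (t₀, w₀) :=
        (hcomp.continuousAt.sub continuous_fst.continuousAt).norm
      refine hc.eventually_lt_const ?_
      show ‖g (Z t₀ w₀) - t₀‖ < κ₁
      rw [hval]; exact hx0.1
    have hev2 : ∀ᶠ p : ℂ × ℂ in 𝓝 (t₀, w₀), Z (g (Z p.1 p.2)) 0 = Z p.1 p.2 := by
      have hc : Tendsto (fun p : ℂ × ℂ => Z p.1 p.2) (𝓝 (t₀, w₀)) (𝓝 (Z x₀ 0)) := by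
        have := hZat.continuousAt
        unfold ContinuousAt at this
        rwa [hZe] at this
      exact hc.eventually hg2
    refine DifferentiableWithinAt.congr_of_eventuallyEq hcomp.differentiableWithinAt ?_ ?_
    · filter_upwards [mem_nhdsWithin_of_mem_nhds hev1, mem_nhdsWithin_of_mem_nhds hev2,
        self_mem_nhdsWithin] with p hp1 hp2 hp3
      have h6 := hX p.1 p.2 hp3
      exact huniq p.1 p.2 hp3 _ _ h6.1 hp1 h6.2 hp2
    · show X t₀ w₀ = g (Z t₀ w₀)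
      rw [hval]
  · intro t ht
    have h6 := hX t 0 ht
    exact huniq t 0 ht _ _ h6.1 (by simpa using hκ₁) h6.2 rfl
  · exact fun t w htw => (hX t w htw).2
  · intro t w htw
    have h6 := hX t w htw
    have htw' : (t + 1, w) ∈ XD b κ δ r₁ := by
      obtain ⟨hw, ht1, ht2, ht3⟩ := htw
      simp only at hw ht1 ht2 ht3
      refine ⟨hw, by simpa using ht1, by simpa using ht2, fun k => ?_⟩
      have h1 := ht3 (k + 2 * (-1))
      rw [← xi_add] at h1
      have h2 : t + 1 - xi b k = t - (xi b k + ((-1 : ℤ) : ℂ)) := by push_cast; ring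
      show δ < ‖t + 1 - xi b k‖
      rw [h2]; exact h1
    have h7 := hX (t + 1) w htw'
    obtain ⟨hw, ht1, ht2, ht3⟩ := htw
    simp only at hw ht1 ht2 ht3
    have hxim : -κ < (X t w).im ∧ (X t w).im < b + κ := by
      have h4 := (Complex.abs_im_le_norm (X t w - t)).trans_lt h6.1
      rw [Complex.sub_im, abs_lt] at h4
      exact ⟨by linarith [h4.1], by linarith [h4.2]⟩
    refine huniq (t + 1) w htw' _ _ h7.1 ?_ h7.2 ?_
    · rw [show X t w + 1 - (t + 1) = X t w - t by ring]; exact h6.1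
    · rw [h.per (X t w) 0 hxim.1 hxim.2 hr0, h6.2, h.per t w (by linarith) (by linarith)
        (by linarith)]
  · intro t w htw
    have h6 := hX t w htw
    obtain ⟨hw, ht1, ht2, ht3⟩ := htw
    simp only at hw ht1 ht2 ht3
    have h7 := hinj t ht1.le ht2.le (fun k => (ht3 k).le) (X t w) t h6.1 (by simpa using hκ₁)
    rw [h6.2] at h7
    have h8 := hquad t w ht1.le ht2.le (by linarith)
    rw [div_mul_eq_mul_div, le_div_iff₀ hm]
    linarith
  · intro t w htw x hx hx2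
    have h6 := hX t w htw
    exact huniq t w htw _ _ hx h6.1 hx2 h6.2

end Vale.Agent.P097.H795
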